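import Mathlib
import Vale.Agent.Lib.P090.Reduction

open Vale.Agent.Lib.P090.Bdd

/-- Over a uniformly discrete space with separation `s` every finite set of radius at most `ρ`
is fixed by a finite rank operator on the free space of norm at most `3 √(ρ/s) + 2`; bounded
uniformly discrete spaces have the `(3 √(R/s) + 2)`-BAP; and the BAP for all uniformly discrete
spaces is equivalent to the BAP with one uniform constant for all bounded uniformly discrete spaces. -/
theorem Vale.Agent.Results.P090.BoundedReduction.result :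
    (∀ (M : Type) [MetricSpace M] (o : M) (s : ℝ), 0 < s → (∀ x y : M, x ≠ y → s ≤ dist x y) →
      ∀ (N : Finset M) (ρ : ℝ), 0 < ρ → (∀ u ∈ N, dist u o ≤ ρ) →
        ∃ T : FreeSpace M o →L[ℝ] FreeSpace M o,
          FiniteDimensional ℝ (LinearMap.range T.toLinearMap) ∧
          ‖T‖ ≤ 3 * Real.sqrt (ρ / s) + 2 ∧ ∀ u ∈ N, T (delta o u) = delta o u) ∧
    (∀ (M : Type) [MetricSpace M] (o : M) (s R : ℝ), 0 < s → 0 < R →
      (∀ x y : M, x ≠ y → s ≤ dist x y) → (∀ x, dist x o ≤ R) →
        HasBAP (3 * Real.sqrt (R / s) + 2) (FreeSpace M o)) ∧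
    ((∀ (M : Type) [MetricSpace M] (o : M), (∃ s > 0, ∀ x y : M, x ≠ y → s ≤ dist x y) →
        ∃ c, HasBAP c (FreeSpace M o)) ↔
      (∃ c, ∀ (M : Type) [MetricSpace M] (o : M), (∃ s > 0, ∀ x y : M, x ≠ y → s ≤ dist x y) →
        (∃ R, ∀ x, dist x o ≤ R) → HasBAP c (FreeSpace M o))) :=
  ⟨fun _ _ o _ hs hsep N _ hρ hN => exists_fixing_operator o hs hsep N hρ hN,
   fun _ _ o _ _ hs hR hsep hrad => hasBAP_of_bounded o hs hR hsep hrad,
   forall_bap_iff⟩
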