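import Vale.Agent.Lib.P090.Assemble

open Vale.Agent.Lib.P090 in
/-- There is a countable uniformly discrete metric space whose Lipschitz-free space fails the
bounded approximation property, for every choice of base point. -/
theorem Vale.Agent.Results.P090.UniformlyDiscreteNoBAP.result :
    ∃ (M : Type) (_ : MetricSpace M), Nonempty M ∧ Countable M ∧
      (∃ θ : ℝ, 0 < θ ∧ ∀ x y : M, x ≠ y → θ ≤ dist x y) ∧
      ∀ o : M, ¬ HasBAP (Free o) :=
  main_thm
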